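import Crest.Agent.R269.A.Loc

/-!
# Row 269, block F: definitions (FROZEN, owner helper53)

Route (no primitive element): a generic linear projection `pr Λ : Y → ℂ^{n+1} ∖ 0` is finite; the coordinate ring is generated over
`S = ℂ[t]` by homogeneous `a₁ … a_r`; over `Δ ≠ 0` it is a covering.  Fibre sums `tr (a_i h)` of homogeneous holomorphic functions are
polynomials, and `h ↦ (tr (a_i h))_i` is pointwise injective.  F1: linear algebra over `Frac S`.  F2: `S^r` is Noetherian.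
-/

set_option autoImplicit false
set_option linter.unusedSectionVars false
set_option linter.unusedVariables false

noncomputable section

namespace Crest.Agent.R269.F

open Set Metric Filter Topology Matrix
open Crest.AlgGeometry.ProjEmb

/-- polynomials in `m` variables -/
abbrev Pl (m : ℕ) : Type := MvPolynomial (Fin m) ℂ

/-- the linear projection -/
def pr {N n : ℕ} (Λ : Matrix (Fin (n + 1)) (Fin (N + 1)) ℂ) (y : Cn (N + 1)) : Fin (n + 1) → ℂ := Λ *ᵥ y.ofLp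

/-- pull-back of polynomials under the projection -/
def pb {N n : ℕ} (Λ : Matrix (Fin (n + 1)) (Fin (N + 1)) ℂ) : Pl (n + 1) →ₐ[ℂ] Pl (N + 1) :=
  MvPolynomial.aeval fun a => ∑ i, MvPolynomial.C (Λ a i) * MvPolynomial.X i

/-- homogeneous components of integer degree -/
def cmp {m : ℕ} (l : ℤ) (G : Pl m) : Pl m := if 0 ≤ l then MvPolynomial.homogeneousComponent l.toNat G else 0

/-- A finite linear projection with module generators and a discriminant. -/
structure Cov {N n : ℕ} (X : Geo N n) where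
  Λ : Matrix (Fin (n + 1)) (Fin (N + 1)) ℂ
  ne : ∀ y ∈ X.Y, pr Λ y ≠ 0
  r : ℕ
  a : Fin r → Pl (N + 1)
  d : Fin r → ℕ
  hom : ∀ i, (a i).IsHomogeneous (d i)
  gen : ∀ G : Pl (N + 1), ∃ s : Fin r → Pl (n + 1), ∀ y ∈ X.Y,
    ev G y = ∑ i, MvPolynomial.eval (pr Λ y) (s i) * ev (a i) y
  Δ : Pl (n + 1)
  Δne : Δ ≠ 0
  Δ0 : ∀ t : Fin (n + 1) → ℂ, MvPolynomial.eval t Δ ≠ 0 → t 0 ≠ 0
  et : ∀ y ∈ X.Y, MvPolynomial.eval (pr Λ y) Δ ≠ 0 → ∃ f, X.dl f Λ y ≠ 0
  inj : ∀ s : Pl (n + 1), (∀ y ∈ X.Y, MvPolynomial.eval (pr Λ y) s = 0) → s = 0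

/-- the fibres -/
def fib {N n : ℕ} (X : Geo N n) (Λ : Matrix (Fin (n + 1)) (Fin (N + 1)) ℂ) (t : Fin (n + 1) → ℂ) : Set (Cn (N + 1)) :=
  {y | y ∈ X.Y ∧ pr Λ y = t}

variable {N n : ℕ}

theorem pr_smul (Λ : Matrix (Fin (n + 1)) (Fin (N + 1)) ℂ) (c : ℂ) (y : Cn (N + 1)) : pr Λ (c • y) = c • pr Λ y := by
  simp [pr, mulVec_smul]

theorem pr_zero (Λ : Matrix (Fin (n + 1)) (Fin (N + 1)) ℂ) (y : Cn (N + 1)) : pr Λ y 0 = ell Λ y := rfl

theorem continuous_pr (Λ : Matrix (Fin (n + 1)) (Fin (N + 1)) ℂ) : Continuous (pr Λ) := by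
  unfold pr
  fun_prop

theorem ev_pb (Λ : Matrix (Fin (n + 1)) (Fin (N + 1)) ℂ) (s : Pl (n + 1)) (y : Cn (N + 1)) :
    ev (pb Λ s) y = MvPolynomial.eval (pr Λ y) s := by
  induction s using MvPolynomial.induction_on with
  | C a => simp [ev, pb]
  | add p q hp hq => simp only [ev, map_add] at *; rw [hp, hq]
  | mul_X p i hp =>
    simp only [ev, map_mul] at *
    rw [hp]
    simp [pb, pr, mulVec, dotProduct]

theorem pb_X_hom (Λ : Matrix (Fin (n + 1)) (Fin (N + 1)) ℂ) (a : Fin (n + 1)) :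
    (pb Λ (MvPolynomial.X a)).IsHomogeneous 1 := by
  simp only [pb, MvPolynomial.aeval_X]
  exact MvPolynomial.IsHomogeneous.sum _ _ _ fun i _ => by
    simpa using (MvPolynomial.isHomogeneous_C _ (Λ a i)).mul (MvPolynomial.isHomogeneous_X ℂ i)

theorem pb_hom (Λ : Matrix (Fin (n + 1)) (Fin (N + 1)) ℂ) {s : Pl (n + 1)} {k : ℕ} (hs : s.IsHomogeneous k) :
    (pb Λ s).IsHomogeneous k := by
  have := hs.aeval (fun a => ∑ i, MvPolynomial.C (Λ a i) * MvPolynomial.X i) (n := 1)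
    (fun a => by simpa [pb] using pb_X_hom Λ a)
  simpa [pb] using this

theorem ev_mem {X : Geo N n} {G : Pl (N + 1)} (hG : G ∈ X.I) {y : Cn (N + 1)} (hy : y ∈ X.Y) : ev G y = 0 :=
  X.zero y hy.1 hy.2 G hG

/-- polynomials that agree off a hypersurface agree -/
theorem eq_of_off {m : ℕ} {Δ P Q : Pl m} (hΔ : Δ ≠ 0)
    (h : ∀ t, MvPolynomial.eval t Δ ≠ 0 → MvPolynomial.eval t P = MvPolynomial.eval t Q) : P = Q := by
  have : Δ * (P - Q) = 0 := MvPolynomial.funext fun t => by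
    by_cases ht : MvPolynomial.eval t Δ = 0
    · simp [ht]
    · simp [h t ht]
  exact sub_eq_zero.1 ((mul_eq_zero.1 this).resolve_left hΔ)

end Crest.Agent.R269.F
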