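import Crest.Agent.R269.F.Base

/-!
# Row 269, block F: the coordinate ring is finite over `ℂ[t]` (statements FROZEN)
-/

set_option autoImplicit false
set_option linter.unusedSectionVars false
set_option linter.unusedVariables false

noncomputable section

namespace Crest.Agent.R269.F

open Set Metric Filter Topology Matrix
open Crest.AlgGeometry.ProjEmb

variable {N n : ℕ}

/-- Nullstellensatz: the zero locus of `J = I ⊔ span (range t)`, `t a = pb Λ (X a)`, is inside `{0}` (`mem_Y_iff`, `ev_pb`), so every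
`X i` is in the radical (`MvPolynomial.vanishingIdeal_zeroLocus_eq_radical`); `X i ^ k ∈ J` for one `k`; a monomial of degree
`≥ K = (N + 1) k + 1` has an exponent `≥ k`. -/
theorem exists_deg (X : Geo N n) {Λ : Matrix (Fin (n + 1)) (Fin (N + 1)) ℂ} (hΛ : ∀ y ∈ X.Y, pr Λ y ≠ 0) :
    ∃ K : ℕ, 1 ≤ K ∧ ∀ d : Fin (N + 1) →₀ ℕ, K ≤ d.degree →
      MvPolynomial.monomial d (1 : ℂ) ∈ X.I ⊔ Ideal.span (range fun a => pb Λ (MvPolynomial.X a)) := by
  set J : Ideal (Pl (N + 1)) := X.I ⊔ Ideal.span (range fun a => pb Λ (MvPolynomial.X a)) with hJ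
  have h1 : ∀ i, ∃ k : ℕ, (MvPolynomial.X i : Pl (N + 1)) ^ k ∈ J := by
    intro i
    have : (MvPolynomial.X i : Pl (N + 1)) ∈ J.radical := by
      rw [← MvPolynomial.vanishingIdeal_zeroLocus_eq_radical (K := ℂ), MvPolynomial.mem_vanishingIdeal_iff]
      intro x hx
      rw [MvPolynomial.mem_zeroLocus_iff] at hx
      by_contra hne
      have h0 : (WithLp.toLp 2 x : Cn (N + 1)) ≠ 0 := by
        intro hc
        have : x = 0 := congrArg WithLp.ofLp hc
        exact hne (by simp [this])
      have hy : (WithLp.toLp 2 x : Cn (N + 1)) ∈ X.Y :=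
        X.mem_Y_iff.2 ⟨h0, fun G hG => hx G (Ideal.mem_sup_left hG)⟩
      refine hΛ _ hy (funext fun a => ?_)
      have h2 := ev_pb Λ (MvPolynomial.X a) (WithLp.toLp 2 x)
      rw [MvPolynomial.eval_X] at h2
      rw [← h2]
      exact hx _ (Ideal.mem_sup_right (Ideal.subset_span ⟨a, rfl⟩))
    exact this
  choose k hk using h1
  refine ⟨∑ i, k i + 1, Nat.le_add_left _ _, fun d hd => ?_⟩
  obtain ⟨i, hi⟩ : ∃ i, k i ≤ d i := by
    by_contra hc
    push Not at hc
    have h2 : d.degree ≤ ∑ i, k i := by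
      rw [Finsupp.degree_eq_sum]
      exact Finset.sum_le_sum fun i _ => (hc i).le
    omega
  have h3 : MvPolynomial.monomial d (1 : ℂ) =
      MvPolynomial.monomial (d - Finsupp.single i (k i)) (1 : ℂ) * (MvPolynomial.X i : Pl (N + 1)) ^ k i := by
    rw [MvPolynomial.X_pow_eq_monomial, MvPolynomial.monomial_mul, one_mul,
      tsub_add_cancel_of_le (Finsupp.single_le_iff.2 hi)]
  rw [h3]
  exact J.mul_mem_left _ (hk i)

/-- For `p` homogeneous of degree `1` (graded algebra: `DirectSum.coe_decompose_mul_add_of_left_mem`, or induct on `G` with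
`MvPolynomial.homogeneousComponent_of_mem`). -/
theorem hc_mul {m : ℕ} {p : Pl m} (hp : p.IsHomogeneous 1) (G : Pl m) (k : ℕ) :
    MvPolynomial.homogeneousComponent (k + 1) (p * G) = p * MvPolynomial.homogeneousComponent k G := by
  induction G using MvPolynomial.induction_on' with
  | monomial d c =>
    have h1 : (MvPolynomial.monomial d c : Pl m).IsHomogeneous d.degree := MvPolynomial.isHomogeneous_monomial c rfl
    rw [MvPolynomial.homogeneousComponent_of_mem (hp.mul h1), MvPolynomial.homogeneousComponent_of_mem h1]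
    by_cases h : k = d.degree
    · rw [if_pos (by omega), if_pos h]
    · rw [if_neg (by omega), if_neg h, mul_zero]
  | add p' q hp' hq => simp only [mul_add, map_add, hp', hq]

/-- Graded Nakayama.  `a` enumerates the monomials of degree `< K` (`Finsupp.finite_of_degree_le`, or all exponent vectors
`Fin (N+1) → Fin K`).  The set `W` of `G` with the property is a `ℂ`-submodule, contains `I`, is stable under multiplication by `t a`;
strong induction on the degree of a homogeneous `G`: a monomial of degree `k + 1 ≥ K` is `g + ∑ t a * G a`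
(`Submodule.mem_sup`, `Ideal.mem_span_range_iff_exists_fun`); take the components of degree `k + 1` (`X.sm.homogeneous`, `hc_mul`).
Finally `MvPolynomial.sum_homogeneousComponent`. -/
theorem exists_gen (X : Geo N n) {Λ : Matrix (Fin (n + 1)) (Fin (N + 1)) ℂ} (hΛ : ∀ y ∈ X.Y, pr Λ y ≠ 0) :
    ∃ (r : ℕ) (a : Fin r → Pl (N + 1)) (d : Fin r → ℕ), (∀ i, (a i).IsHomogeneous (d i)) ∧
      ∀ G : Pl (N + 1), ∃ s : Fin r → Pl (n + 1), ∀ y ∈ X.Y,
        ev G y = ∑ i, MvPolynomial.eval (pr Λ y) (s i) * ev (a i) y := by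
  obtain ⟨K, hK1, hK⟩ := exists_deg X hΛ
  have hfin := Finsupp.finite_of_degree_lt (σ := Fin (N + 1)) K
  obtain ⟨r, e, he⟩ : ∃ (r : ℕ) (e : Fin r → (Fin (N + 1) →₀ ℕ)), ∀ d, d.degree < K → ∃ i, e i = d := by
    refine ⟨hfin.toFinset.card, fun i => (hfin.toFinset.equivFin.symm i : _), fun d hd => ?_⟩
    exact ⟨hfin.toFinset.equivFin ⟨d, hfin.mem_toFinset.2 hd⟩, by simp⟩
  refine ⟨r, fun i => MvPolynomial.monomial (e i) 1, fun i => (e i).degree,
    fun i => MvPolynomial.isHomogeneous_monomial _ rfl, ?_⟩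
  let W : Submodule ℂ (Pl (N + 1)) :=
    { carrier := {G | ∃ s : Fin r → Pl (n + 1), ∀ y ∈ X.Y,
        ev G y = ∑ i, MvPolynomial.eval (pr Λ y) (s i) * ev (MvPolynomial.monomial (e i) 1) y}
      add_mem' := by
        rintro G H ⟨s, hs⟩ ⟨t, ht⟩
        refine ⟨s + t, fun y hy => ?_⟩
        simp only [alg1_ev_add, hs y hy, ht y hy, Pi.add_apply, map_add, add_mul, Finset.sum_add_distrib]
      zero_mem' := ⟨0, fun y hy => by simp [alg1_ev_zero]⟩
      smul_mem' := by
        rintro c G ⟨s, hs⟩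
        refine ⟨fun i => MvPolynomial.C c * s i, fun y hy => ?_⟩
        simp only [MvPolynomial.smul_eq_C_mul, alg1_ev_mul, alg1_ev_C, hs y hy, map_mul, MvPolynomial.eval_C,
          Finset.mul_sum, mul_assoc] }
  have hI : ∀ G ∈ X.I, G ∈ W := fun G hG => ⟨0, fun y hy => by simp [ev_mem hG hy]⟩
  have ht : ∀ a, ∀ G ∈ W, pb Λ (MvPolynomial.X a) * G ∈ W := by
    rintro a G ⟨s, hs⟩
    refine ⟨fun i => MvPolynomial.X a * s i, fun y hy => ?_⟩
    simp only [alg1_ev_mul, ev_pb, hs y hy, map_mul, Finset.mul_sum, mul_assoc]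
  have hmon : ∀ (k : ℕ), (∀ d : Fin (N + 1) →₀ ℕ, d.degree = k → MvPolynomial.monomial d (1 : ℂ) ∈ W) →
      ∀ G : Pl (N + 1), MvPolynomial.homogeneousComponent k G ∈ W := by
    intro k hk G
    rw [MvPolynomial.homogeneousComponent_apply]
    refine W.sum_mem fun d hd => ?_
    have : MvPolynomial.monomial d (MvPolynomial.coeff d G) =
        MvPolynomial.coeff d G • MvPolynomial.monomial d (1 : ℂ) := by
      rw [MvPolynomial.smul_monomial, smul_eq_mul, mul_one]
    rw [this]
    exact W.smul_mem _ (hk d (Finset.mem_filter.1 hd).2)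
  have hall : ∀ (k : ℕ) (d : Fin (N + 1) →₀ ℕ), d.degree = k → MvPolynomial.monomial d (1 : ℂ) ∈ W := by
    intro k
    induction k with
    | zero =>
      intro d hd
      obtain ⟨i, rfl⟩ := he d (by omega)
      refine ⟨Pi.single i 1, fun y hy => ?_⟩
      rw [Finset.sum_eq_single i] <;> simp +contextual
    | succ k ih =>
      intro d hd
      by_cases hlt : d.degree < K
      · obtain ⟨i, rfl⟩ := he d hlt
        refine ⟨Pi.single i 1, fun y hy => ?_⟩
        rw [Finset.sum_eq_single i] <;> simp +contextual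
      · obtain ⟨g, hg, q, hq, hsum⟩ := Submodule.mem_sup.1 (hK d (not_lt.1 hlt))
        obtain ⟨c, rfl⟩ := Ideal.mem_span_range_iff_exists_fun.1 hq
        have h1 : (MvPolynomial.monomial d (1 : ℂ) : Pl (N + 1)).IsHomogeneous (k + 1) :=
          MvPolynomial.isHomogeneous_monomial _ hd
        rw [← MvPolynomial.homogeneousComponent_eq_self h1, ← hsum, map_add, map_sum]
        refine W.add_mem (hI _ (X.sm.homogeneous g hg _)) (W.sum_mem fun a _ => ?_)
        rw [mul_comm, hc_mul (pb_X_hom Λ a)]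
        exact ht a _ (hmon k ih _)
  intro G
  have : G ∈ W := by
    rw [← MvPolynomial.sum_homogeneousComponent G]
    exact W.sum_mem fun k _ => hmon k (hall k) G
  exact this

end Crest.Agent.R269.F
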