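import Crest.Agent.R269.F.Gen
import Crest.Agent.R269.F.Fin

/-!
# Row 269, block F: discriminant, injectivity, existence of `Cov` (statements FROZEN)
-/

set_option autoImplicit false
set_option linter.unusedSectionVars false
set_option linter.unusedVariables false

noncomputable section

namespace Crest.Agent.R269.F

open Set Metric Filter Topology Matrix
open Crest.AlgGeometry.ProjEmb

variable {N n : ℕ}

theorem exists_multiple_aux {R A : Type} [CommRing R] [CommRing A] [Nontrivial R] [IsDomain A] (φ : R →+* A) {r : ℕ}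
    (a : Fin r → A) (gen : ∀ x, ∃ s : Fin r → R, ∑ i, φ (s i) * a i = x) {δ : A} (hδ : δ ≠ 0) :
    ∃ Δ : R, Δ ≠ 0 ∧ ∃ b, b * δ = φ Δ := by
  let := φ.toAlgebra
  have : Module.Finite R A := ⟨Submodule.fg_def.2 ⟨range a, finite_range _, eq_top_iff.2 fun x _ =>
    (Submodule.mem_span_range_iff_exists_fun _).2 (gen x)⟩⟩
  obtain ⟨Δ, hΔ, hΔ0⟩ := Submodule.exists_mem_ne_zero_of_ne_bot (Ideal.comap_ne_bot_of_integral_mem (R := R)
    (I := Ideal.span {δ}) hδ (Ideal.mem_span_singleton_self _) (Algebra.IsIntegral.isIntegral δ))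
  exact ⟨Δ, hΔ0, Ideal.mem_span_singleton'.1 (Ideal.mem_comap.1 hΔ)⟩

/-- `A = Pl (N+1) ⧸ I` is a domain, finite over `S` through `mk ∘ pb Λ` (`mem_of_vanish`), hence integral;
`Ideal.eq_bot_of_comap_eq_bot` for `span {mk δ}`. -/
theorem exists_multiple (X : Geo N n) {Λ : Matrix (Fin (n + 1)) (Fin (N + 1)) ℂ} {r : ℕ} {a : Fin r → Pl (N + 1)}
    (gen : ∀ G : Pl (N + 1), ∃ s : Fin r → Pl (n + 1), ∀ y ∈ X.Y,
      ev G y = ∑ i, MvPolynomial.eval (pr Λ y) (s i) * ev (a i) y) {δ : Pl (N + 1)} (hδ : δ ∉ X.I) :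
    ∃ Δ : Pl (n + 1), Δ ≠ 0 ∧ ∀ y ∈ X.Y, ev δ y = 0 → MvPolynomial.eval (pr Λ y) Δ = 0 := by
  have := X.prime
  obtain ⟨Δ, hΔ0, b, hb⟩ := exists_multiple_aux ((Ideal.Quotient.mk X.I).comp (pb Λ).toRingHom)
    (fun i => Ideal.Quotient.mk X.I (a i)) (fun x => by
      obtain ⟨G, rfl⟩ := Ideal.Quotient.mk_surjective x
      obtain ⟨s, hs⟩ := gen G
      refine ⟨s, ?_⟩
      change ∑ i, Ideal.Quotient.mk X.I (pb Λ (s i)) * Ideal.Quotient.mk X.I (a i) = _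
      simp only [← map_mul, ← map_sum]
      refine Ideal.Quotient.eq.2 (X.mem_of_vanish fun y hy => ?_)
      have := hs y hy
      simp only [← ev_pb] at this
      simp only [ev] at this ⊢
      simp [this]) (mt Ideal.Quotient.eq_zero_iff_mem.1 hδ)
  obtain ⟨b, rfl⟩ := Ideal.Quotient.mk_surjective b
  refine ⟨Δ, hΔ0, fun y hy h0 => ?_⟩
  have h1 : b * δ - pb Λ Δ ∈ X.I := Ideal.Quotient.eq.1 hb
  have h2 := ev_mem h1 hy
  rw [← ev_pb]
  simp only [ev, map_sub, map_mul] at h0 h2 ⊢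
  rw [h0] at h2
  linear_combination -h2

/-- Local sections of `pr Λ`: `σ' t = t 0 • C.σ (t.succ / t 0)` for the chart of `exists_chart`; `Chart.eventually`. -/
theorem exists_sec (X : Geo N n) {Λ : Matrix (Fin (n + 1)) (Fin (N + 1)) ℂ} {y : Cn (N + 1)} (hy : y ∈ X.Y)
    (h0 : ell Λ y ≠ 0) {f : X.Fi} (hf : X.dl f Λ y ≠ 0) :
    ∃ σ : (Fin (n + 1) → ℂ) → Cn (N + 1), AnalyticAt ℂ σ (pr Λ y) ∧ σ (pr Λ y) = y ∧
      (∀ᶠ t in 𝓝 (pr Λ y), σ t ∈ X.Y ∧ pr Λ (σ t) = t) ∧ ∀ᶠ x in 𝓝[X.Y] y, σ (pr Λ x) = x := by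
  obtain ⟨C, rfl, hB, hσ⟩ := X.exists_chart hy h0 hf
  let z : (Fin (n + 1) → ℂ) → Cn n := fun t => WithLp.toLp 2 fun j => t j.succ / t 0
  have hp : ∀ i, AnalyticAt ℂ (fun t : Fin (n + 1) → ℂ => t i) (pr C.Λ y) := fun i =>
    (ContinuousLinearMap.proj i : (Fin (n + 1) → ℂ) →L[ℂ] ℂ).analyticAt _
  have hz : AnalyticAt ℂ z (pr C.Λ y) :=
    ((EuclideanSpace.equiv (Fin n) ℂ).symm.analyticAt _).comp (AnalyticAt.pi fun j => (hp j.succ).div (hp 0) h0)
  have e : y = ell C.Λ y • C.σ (zeta C.Λ y) := by rw [hσ, smul_inv_smul₀ h0]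
  refine ⟨fun t => t 0 • C.σ (z t), (hp 0).smul ((C.an _ hB).comp (f := z) hz), e.symm, ?_, ?_⟩
  · filter_upwards [hz.continuousAt.eventually_mem (C.isOpen.mem_nhds hB), (hp 0).continuousAt.eventually_ne h0]
      with t a1 a2
    refine ⟨X.smul_mem_Y (C.mem a1) a2, ?_⟩
    rw [pr_smul]
    funext i
    refine Fin.cases ?_ (fun j => ?_) i
    · rw [Pi.smul_apply, pr_zero, C.one _ a1, smul_eq_mul, mul_one]
    · have := congrArg (fun v : Cn n => v j) (C.inv _ a1)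
      simp only [zeta, C.one _ a1, div_one, z] at this
      rw [Pi.smul_apply, pr, this, smul_eq_mul, mul_div_cancel₀ _ a2]
  · have := C.eventually hB h0
    rw [← e] at this
    exact this.mono fun x hx => hx.2.2.symm

/-- `exists_Lam`, `exists_gen`, `exists_dl_poly`, `exists_multiple` (`Δ = X 0 * Δ'`); `inj` from `exists_sec` and
`R271.T1.dense_ne`-type density (`MvPolynomial.funext_set`, or the identity theorem). -/
theorem cov_exists (X : Geo N n) : Nonempty (Cov X) := by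
  obtain ⟨Λ, hΛ, y, hy, h0, f, hf⟩ := exists_Lam X
  obtain ⟨r, a, d, hom, gen⟩ := exists_gen X hΛ
  obtain ⟨δ, -, hδ⟩ := X.exists_dl_poly f Λ
  obtain ⟨Δ, hΔ, hΔ'⟩ := exists_multiple X gen (δ := δ) fun h => hf (hδ y ▸ ev_mem h hy)
  refine ⟨⟨Λ, hΛ, r, a, d, hom, gen, MvPolynomial.X 0 * Δ, mul_ne_zero (MvPolynomial.X_ne_zero _) hΔ,
    fun t ht h => ht (by simp [h]), fun x hx h => ⟨f, fun h' => h (by rw [map_mul, hΔ' x hx (hδ x ▸ h'), mul_zero])⟩,
    fun s hs => ?_⟩⟩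
  obtain ⟨σ, -, -, h1, -⟩ := exists_sec X hy h0 hf
  obtain ⟨ε, hε, h2⟩ := Metric.eventually_nhds_iff_ball.1 h1
  refine MvPolynomial.funext_set (fun i => ball (pr Λ y i) ε) (fun i => infinite_of_mem_nhds _ (ball_mem_nhds _ hε))
    fun t ht => ?_
  obtain ⟨a1, a2⟩ := h2 t (by rwa [ball_pi _ hε])
  rw [map_zero, ← a2]
  exact hs _ a1

end Crest.Agent.R269.F
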