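import Crest.Agent.R269.F.Base

/-!
# Row 269, block F: homogeneous components (statements FROZEN)
-/

set_option autoImplicit false
set_option linter.unusedSectionVars false
set_option linter.unusedVariables false

noncomputable section

namespace Crest.Agent.R269.F

open Set Metric Filter Topology Matrix
open Crest.AlgGeometry.ProjEmb

variable {N n : ℕ}

theorem ind_mem (X : Geo N n) : X.Y.indicator (1 : Cn (N + 1) → ℂ) ∈ X.MH 0 := by
  refine ⟨fun y _ => ⟨1, analyticAt_const, eventually_nhdsWithin_of_forall fun x hx => indicator_of_mem hx _⟩,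
    fun y hy t ht => ?_, fun y hy => indicator_of_notMem hy _⟩
  simp [indicator_of_mem hy, indicator_of_mem (X.smul_mem_Y hy ht)]

theorem mul_mem {X : Geo N n} {j : ℤ} {h : Cn (N + 1) → ℂ} (hh : h ∈ X.MH j) {G : Pl (N + 1)} {d : ℕ}
    (hG : G.IsHomogeneous d) : ev G * h ∈ X.MH (j + d) := by
  obtain ⟨h1, h2, h3⟩ := hh
  refine ⟨fun y hy => ?_, fun y hy t ht => ?_, fun y hy => by simp [h3 y hy]⟩
  · obtain ⟨g, g1, g2⟩ := h1 y hy
    exact ⟨ev G * g, (analyticAt_ev G y).mul g1, EventuallyEq.rfl.mul g2⟩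
  · simp only [Pi.mul_apply, ev_smul hG, h2 y hy t ht, zpow_add₀ ht, zpow_natCast]
    ring

theorem MH_cont {X : Geo N n} {j : ℤ} {h : Cn (N + 1) → ℂ} (hh : h ∈ X.MH j) : ContinuousOn h X.Y := by
  intro y hy
  obtain ⟨g, g1, g2⟩ := hh.1 y hy
  exact g1.continuousAt.continuousWithinAt.congr_of_eventuallyEq_of_mem g2 hy

/-- density of `{G ≠ 0}` (`irred`) -/
theorem eq_of_dense {X : Geo N n} {G : Pl (N + 1)} (hG : G ∉ X.I) {f g : Cn (N + 1) → ℂ} (hf : ContinuousOn f X.Y)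
    (hg : ContinuousOn g X.Y) (h : ∀ y ∈ X.Y, ev G y ≠ 0 → f y = g y) : ∀ y ∈ X.Y, f y = g y := by
  intro y hy
  exact tendsto_nhds_unique_of_frequently_eq (hf y hy) (hg y hy)
    (((X.irred hG hy).and_eventually self_mem_nhdsWithin).mono fun x hx => h x hx.2 hx.1)

/-- compactness of `Y ∩ sphere` -/
theorem bdd_of_hom (X : Geo N n) {φ : Cn (N + 1) → ℝ} (hc : ContinuousOn φ X.Y)
    (hh : ∀ y ∈ X.Y, ∀ c : ℂ, c ≠ 0 → φ (c • y) = φ y) : ∃ C, 0 ≤ C ∧ ∀ y ∈ X.Y, φ y ≤ C := by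
  obtain ⟨C, hC⟩ := X.isCompact_Y1.bddAbove_image (hc.mono inter_subset_left)
  refine ⟨max C 0, le_max_right _ _, fun y hy => le_max_of_le_left ?_⟩
  have h0 : ((‖y‖⁻¹ : ℝ) : ℂ) ≠ 0 := Complex.ofReal_ne_zero.2 (inv_ne_zero (norm_ne_zero_iff.2 hy.1))
  rw [← hh y hy _ h0]
  refine hC ⟨_, ⟨X.smul_mem_Y hy h0, ?_⟩, rfl⟩
  rw [mem_sphere_zero_iff_norm, norm_smul, Complex.norm_real, norm_inv, norm_norm,
    inv_mul_cancel₀ (norm_ne_zero_iff.2 hy.1)]

theorem cmp_hom {m : ℕ} (l : ℤ) (G : Pl m) : cmp l G = 0 ∨ (0 ≤ l ∧ (cmp l G).IsHomogeneous l.toNat) := by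
  unfold cmp
  split_ifs with h
  exacts [Or.inr ⟨h, MvPolynomial.homogeneousComponent_isHomogeneous _ _⟩, Or.inl rfl]

theorem extract_poly {p : ℕ} (x : Fin p → ℂ) (G : Pl p) : ∃ g : Polynomial ℂ,
    (∀ c, g.eval c = MvPolynomial.eval (c • x) G) ∧
      ∀ l, g.coeff l = MvPolynomial.eval x (MvPolynomial.homogeneousComponent l G) := by
  refine ⟨∑ l ∈ Finset.range (G.totalDegree + 1),
    Polynomial.monomial l (MvPolynomial.eval x (MvPolynomial.homogeneousComponent l G)), fun c => ?_, fun l => ?_⟩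
  · conv_rhs => rw [← MvPolynomial.sum_homogeneousComponent G]
    rw [Polynomial.eval_finsetSum, map_sum]
    refine Finset.sum_congr rfl fun l _ => ?_
    rw [Polynomial.eval_monomial, mul_comm]
    exact (ev_smul (MvPolynomial.homogeneousComponent_isHomogeneous l G) (WithLp.toLp 2 x) c).symm
  · simp only [Polynomial.finsetSum_coeff, Polynomial.coeff_monomial, Finset.sum_ite_eq', Finset.mem_range]
    split_ifs with h
    · rfl
    · rw [MvPolynomial.homogeneousComponent_eq_zero _ _ (by omega), map_zero]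

/-- Extraction of components.  Fix `y`, `x = L y`, `M` with `0 ≤ e i + M` and `0 ≤ k + M`.  With
`g i = ∑ l ∈ range (totalDegree + 1), C (eval x (homogeneousComponent l (G i))) * X ^ l ∈ ℂ[X]` one has `(g i).eval c = eval (c • x) (G i)` and
`(g i).coeff l = eval x (homogeneousComponent l (G i))`.  The polynomial `∑ i, X ^ (e i + M).toNat * g i * C (m i y)` vanishes at every
`c ≠ 0`, hence is `0` (`Polynomial.eq_zero_of_infinite_isRoot`); take the coefficient `(k + M).toNat` (`Polynomial.coeff_X_pow_mul'`). -/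
theorem extract {X : Geo N n} {p : ℕ} (L : Cn (N + 1) → Fin p → ℂ) (hL : ∀ (c : ℂ) y, L (c • y) = c • L y)
    {ι : Type} [Fintype ι] {m : ι → Cn (N + 1) → ℂ} {e : ι → ℤ} (hm : ∀ i, m i ∈ X.MH (e i)) (G : ι → Pl p)
    (h : ∀ y ∈ X.Y, ∑ i, MvPolynomial.eval (L y) (G i) * m i y = 0) (k : ℤ) :
    ∀ y ∈ X.Y, ∑ i, MvPolynomial.eval (L y) (cmp (k - e i) (G i)) * m i y = 0 := by
  intro y hy
  choose g g1 g2 using fun i => extract_poly (L y) (G i)
  obtain ⟨M, hM, hk⟩ : ∃ M : ℤ, (∀ i, 0 ≤ e i + M) ∧ 0 ≤ k + M := by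
    refine ⟨|k| + ∑ i, |e i|, fun i => ?_, ?_⟩
    · have := Finset.single_le_sum (f := fun i => |e i|) (fun i _ => abs_nonneg _) (Finset.mem_univ i)
      linarith [neg_abs_le (e i), abs_nonneg k]
    · linarith [neg_abs_le k, Finset.sum_nonneg fun i (_ : i ∈ Finset.univ) => abs_nonneg (e i)]
  have h0 : ∑ i, Polynomial.X ^ (e i + M).toNat * g i * Polynomial.C (m i y) = 0 := by
    refine Polynomial.eq_zero_of_infinite_isRoot _ (((finite_singleton (0 : ℂ)).infinite_compl).mono fun c hc => ?_)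
    have hc' : c ≠ 0 := hc
    have h1 := congrArg (c ^ M * ·) (h _ (X.smul_mem_Y hy hc'))
    simp only [Finset.mul_sum, mul_zero] at h1
    rw [mem_ofPred_eq, Polynomial.IsRoot, Polynomial.eval_finsetSum, ← h1]
    refine Finset.sum_congr rfl fun i _ => ?_
    rw [Polynomial.eval_mul, Polynomial.eval_mul, Polynomial.eval_C, Polynomial.eval_pow, Polynomial.eval_X, g1, hL,
      (hm i).2.1 y hy c hc', ← zpow_natCast, Int.toNat_of_nonneg (hM i), zpow_add₀ hc']
    ring
  have h1 := congrArg (Polynomial.coeff · (k + M).toNat) h0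
  simp only [Polynomial.finsetSum_coeff, Polynomial.coeff_mul_C, Polynomial.coeff_X_pow_mul',
    Polynomial.coeff_zero] at h1
  rw [← h1]
  refine Finset.sum_congr rfl fun i _ => ?_
  have := hM i
  congr 1
  unfold cmp
  split_ifs with a1 a2 a2
  · rw [g2, show (k + M).toNat - (e i + M).toNat = (k - e i).toNat by omega]
  · omega
  · omega
  · exact map_zero _

end Crest.Agent.R269.F
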