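import Crest.Agent.R269.F.Tr

/-!
# Row 269, block F: rationality and finite generation (statements FROZEN)
-/

set_option autoImplicit false
set_option linter.unusedSectionVars false
set_option linter.unusedVariables false

noncomputable section

namespace Crest.Agent.R269.F

open Set Metric Filter Topology Matrix
open Crest.AlgGeometry.ProjEmb

variable {N n : ℕ}

/-- Linear algebra over `K = FractionRing R`: either the image of `v` is in the `K`-span of the `g k` (clear denominators,
`IsLocalization.exist_integer_multiples_of_finite`), or a functional separates (`Submodule.exists_dual_map_eq_bot_of_notMem`). -/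
theorem span_or_dual {R : Type} [CommRing R] [IsDomain R] {r s : ℕ} (g : Fin s → Fin r → R) (v : Fin r → R) :
    (∃ (b : R) (c : Fin s → R), b ≠ 0 ∧ ∀ i, b * v i = ∑ k, c k * g k i) ∨
      ∃ l : Fin r → R, (∀ k, ∑ i, l i * g k i = 0) ∧ ∑ i, l i * v i ≠ 0 := by
  classical
  let K := FractionRing R
  have inj : Function.Injective (algebraMap R K) := IsFractionRing.injective R K
  by_cases hv : (fun i => algebraMap R K (v i)) ∈ Submodule.span K (range fun k i => algebraMap R K (g k i))
  · obtain ⟨c, hc⟩ := (Submodule.mem_span_range_iff_exists_fun K).1 hv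
    obtain ⟨b, hb⟩ := IsLocalization.exist_integer_multiples_of_finite (nonZeroDivisors R) c
    choose c' hc' using hb
    refine Or.inl ⟨b, c', nonZeroDivisors.coe_ne_zero b, fun i => inj ?_⟩
    have := congrFun hc i
    simp only [Finset.sum_apply, Pi.smul_apply, smul_eq_mul] at this
    simp only [map_mul, map_sum, hc', ← this, Finset.mul_sum, Algebra.smul_def, mul_assoc]
  · obtain ⟨f, hf, hf'⟩ := Submodule.exists_dual_map_eq_bot_of_notMem hv inferInstance
    obtain ⟨b, hb⟩ := IsLocalization.exist_integer_multiples_of_finite (nonZeroDivisors R) fun i => f (Pi.single i 1)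
    choose l hl using hb
    have key : ∀ w : Fin r → R, algebraMap R K (∑ i, l i * w i) = algebraMap R K b * f fun i => algebraMap R K (w i) := by
      intro w
      rw [LinearMap.pi_apply_eq_sum_univ f, Finset.mul_sum, map_sum]
      refine Finset.sum_congr rfl fun i _ => ?_
      rw [map_mul, hl, Algebra.smul_def, smul_eq_mul, show (fun j => if i = j then (1 : K) else 0) = Pi.single i 1 from
        funext fun j => by simp [Pi.single_apply, eq_comm]]
      ring
    refine Or.inr ⟨l, fun k => inj ?_, fun h => hf ?_⟩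
    · have : f (fun i => algebraMap R K (g k i)) ∈ (⊥ : Submodule K K) :=
        hf' ▸ Submodule.mem_map_of_mem (Submodule.subset_span ⟨k, rfl⟩)
      rw [key, (Submodule.mem_bot K).1 this, mul_zero, map_zero]
    · have := key v
      rw [h, map_zero] at this
      exact (mul_eq_zero.1 this.symm).resolve_left fun h => nonZeroDivisors.coe_ne_zero b (inj (h.trans (map_zero _).symm))

namespace Cov

variable {X : Geo N n} (V : Cov X)

theorem tr_comb {k : ℕ} (G h : Cn (N + 1) → ℂ) (m : Fin k → Cn (N + 1) → ℂ) (b : ℂ) (c : Fin k → ℂ) (t : Fin (n + 1) → ℂ) :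
    V.tr (G * fun y => b * h y - ∑ l, c l * m l y) t = b * V.tr (G * h) t - ∑ l, c l * V.tr (G * m l) t := by
  simp only [tr, Pi.mul_apply, mul_sub, Finset.sum_sub_distrib, Finset.mul_sum]
  rw [Finset.sum_comm]
  congr 1 <;> simp only [mul_left_comm]

theorem Δ_notMem : pb V.Λ V.Δ ∉ X.I := fun h => V.Δne (V.inj _ fun y hy => by rw [← ev_pb]; exact ev_mem h hy)

include V in
theorem rat {j : ℤ} {h : Cn (N + 1) → ℂ} (hh : h ∈ X.MH j) :
    ∃ P Q : Pl (N + 1), Q ∉ X.I ∧ ∀ y ∈ X.Y, ev Q y * h y = ev P y := by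
  choose v hv using fun i => V.tr_poly (mul_mem hh (V.hom i))
  choose g hg using fun k i => V.tr_poly (mul_mem (mul_mem (ind_mem X) (V.hom k)) (V.hom i))
  rcases span_or_dual g v with ⟨b, c, hb, hc⟩ | ⟨l, hl, hl'⟩
  · refine ⟨pb V.Λ V.Δ * ∑ k, pb V.Λ (c k) * V.a k, pb V.Λ (V.Δ * b),
      fun h => mul_ne_zero V.Δne hb (V.inj _ fun y hy => by rw [← ev_pb]; exact ev_mem h hy), fun y hy => ?_⟩
    have e1 : ev (pb V.Λ V.Δ * ∑ k, pb V.Λ (c k) * V.a k) y = MvPolynomial.eval (pr V.Λ y) V.Δ *
        ∑ k, MvPolynomial.eval (pr V.Λ y) (c k) * ev (V.a k) y := by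
      simp only [← ev_pb]
      simp [ev]
    rw [e1, ev_pb, map_mul, mul_assoc]
    by_cases h0 : MvPolynomial.eval (pr V.Λ y) V.Δ = 0
    · simp [h0]
    have := V.tr_inj (t := pr V.Λ y) (g := fun x => MvPolynomial.eval (pr V.Λ y) b * h x -
      ∑ k, MvPolynomial.eval (pr V.Λ y) (c k) * (ev (V.a k) * X.Y.indicator 1 : Cn (N + 1) → ℂ) x) (fun i => by
        rw [V.tr_comb, hv i _ h0, ← map_mul, hc]
        simp only [hg _ i _ h0, map_sum, map_mul, sub_self]) y (V.mem_fs.2 ⟨hy, rfl⟩)
    simp only [Pi.mul_apply, indicator_of_mem hy, Pi.one_apply, mul_one] at this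
    rw [sub_eq_zero.1 this]
  · refine (hl' (eq_of_off V.Δne fun t ht => ?_)).elim
    have := V.tr_inj (t := t) (g := fun x => ∑ i, MvPolynomial.eval t (l i) * ev (V.a i) x) fun k => by
      have := congrArg (MvPolynomial.eval t) (hl k)
      simp only [map_sum, map_mul, ← hg k _ t ht, map_zero, tr, Finset.mul_sum] at this
      rw [← this, Finset.sum_comm]
      refine Finset.sum_congr rfl fun y hy => ?_
      simp only [Pi.mul_apply, Finset.mul_sum, indicator_of_mem (V.mem_fs.1 hy).1, Pi.one_apply]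
      exact Finset.sum_congr rfl fun _ _ => by ring
    simp only [map_sum, map_mul, ← hv _ t ht, map_zero, tr, Finset.mul_sum]
    rw [Finset.sum_comm]
    refine Finset.sum_eq_zero fun y hy => ?_
    simp only [Pi.mul_apply, ← mul_assoc, ← Finset.sum_mul, this y hy, zero_mul]

theorem fg : ∃ (k : ℕ) (m : Fin k → Cn (N + 1) → ℂ) (e : Fin k → ℤ), (∀ i, m i ∈ X.MH (e i)) ∧
    ∀ (j : ℤ), ∀ h ∈ X.MH j, ∃ s : Fin k → Pl (n + 1), ∀ y ∈ X.Y, h y = ∑ i, MvPolynomial.eval (pr V.Λ y) (s i) * m i y := by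
  classical
  let 𝒯 : Set (Fin V.r → Pl (n + 1)) := {v | ∃ (j : ℤ) (h : Cn (N + 1) → ℂ), h ∈ X.MH j ∧
    ∀ i t, MvPolynomial.eval t V.Δ ≠ 0 → V.tr (ev (V.a i) * h) t = MvPolynomial.eval t (v i)}
  obtain ⟨T, hT, hT'⟩ := (Submodule.fg_span_iff_fg_span_finset_subset 𝒯).1
    (IsNoetherian.noetherian (Submodule.span (Pl (n + 1)) 𝒯))
  let w : Fin T.card → Fin V.r → Pl (n + 1) := fun l => (T.equivFin.symm l : _)
  have hw : range w = ↑T := by
    ext x
    exact ⟨fun ⟨l, hl⟩ => hl ▸ (T.equivFin.symm l).2, fun hx => ⟨T.equivFin ⟨x, hx⟩, by simp [w]⟩⟩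
  choose e m hm hm' using fun l => hT (hw ▸ mem_range_self l : w l ∈ (↑T : Set _))
  refine ⟨_, m, e, hm, fun j h hh => ?_⟩
  choose v hv using fun i => V.tr_poly (mul_mem hh (V.hom i))
  have h1 : v ∈ Submodule.span (Pl (n + 1)) (range w) := by
    rw [hw, ← hT']
    exact Submodule.subset_span ⟨j, h, hh, hv⟩
  obtain ⟨s, hs⟩ := (Submodule.mem_span_range_iff_exists_fun _).1 h1
  refine ⟨s, eq_of_dense V.Δ_notMem (MH_cont hh) (continuousOn_finsetSum _ fun l _ =>
    ((MvPolynomial.continuous_eval _).comp (continuous_pr _)).continuousOn.mul (MH_cont (hm l))) fun y hy h0 => ?_⟩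
  rw [ev_pb] at h0
  have := V.tr_inj (t := pr V.Λ y) (g := fun x => 1 * h x - ∑ l, MvPolynomial.eval (pr V.Λ y) (s l) * m l x) (fun i => by
    rw [V.tr_comb, hv i _ h0, ← hs]
    simp only [hm' _ i _ h0, Finset.sum_apply, Pi.smul_apply, smul_eq_mul, map_sum, map_mul, one_mul, sub_self])
    y (V.mem_fs.2 ⟨hy, rfl⟩)
  rw [one_mul] at this
  exact sub_eq_zero.1 this

end Cov

end Crest.Agent.R269.F
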