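import Crest.Agent.R269.A.ThB
import Crest.Agent.R269.F.Rat

/-!
# Row 269, block F: GAGA and finiteness (statements FROZEN; recipe in Blueprint.lean)
-/

set_option autoImplicit false
set_option linter.unusedSectionVars false
set_option linter.unusedVariables false

noncomputable section

namespace Crest.Agent.R269

open Set Metric Filter Topology MeasureTheory Matrix
open Crest.AlgGeometry.ProjEmb
open scoped InnerProductSpace ContDiff

namespace F

variable {N n : ℕ}

theorem exists_hc {X : Geo N n} {Q : Pl (N + 1)} (hQ : Q ∉ X.I) : ∃ q, MvPolynomial.homogeneousComponent q Q ∉ X.I := by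
  by_contra! h
  exact hQ (MvPolynomial.sum_homogeneousComponent Q ▸ Ideal.sum_mem _ fun q _ => h q)

/-- generators of `V_j` -/
def gen {n' k : ℕ} (Λ : Matrix (Fin (n' + 1 + 1)) (Fin (N + 1)) ℂ) (m : Fin k → Cn (N + 1) → ℂ) (K : Fin k → ℕ) (D : ℕ)
    (x : Fin k × (Fin n' → Fin D)) (y : Cn (N + 1)) : ℂ :=
  pr Λ y 1 ^ (K x.1 - ∑ l, (x.2 l : ℕ)) * (∏ l, pr Λ y l.succ.succ ^ (x.2 l : ℕ)) * m x.1 y

theorem split {n' k : ℕ} {X : Geo N (n' + 1)} (Λ : Matrix (Fin (n' + 1 + 1)) (Fin (N + 1)) ℂ) {m : Fin k → Cn (N + 1) → ℂ}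
    {K : Fin k → ℕ} {D : ℕ} {i : Fin k} (hD : K i < D) {e : ℤ} (hm : m i ∈ X.MH e) {s : Pl (n' + 1 + 1)}
    (hs : s.IsHomogeneous (K i)) :
    ev (pb Λ s) * m i ∈ Submodule.span ℂ (range (gen Λ m K D)) ⊔
      (X.MH (e + K i - 1)).map (LinearMap.mulLeft ℂ (ev (pb Λ (MvPolynomial.X 0)))) := by
  have e1 : ev (pb Λ s) * m i = ∑ d ∈ s.support, s.coeff d • (ev (pb Λ (MvPolynomial.monomial d 1)) * m i) := by
    funext y
    simp only [Finset.sum_apply, Pi.mul_apply, Pi.smul_apply, ev_pb, smul_eq_mul, MvPolynomial.eval_monomial, one_mul]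
    rw [MvPolynomial.eval_eq', Finset.sum_mul]
    refine Finset.sum_congr rfl fun d _ => ?_
    rw [Finsupp.prod_fintype _ _ (by simp), mul_assoc]
  rw [e1]
  refine Submodule.sum_mem _ fun d hd => Submodule.smul_mem _ _ ?_
  have hdeg : ∑ l, d l = K i := by
    have := hs (MvPolynomial.mem_support_iff.1 hd)
    rw [← this, ← Finsupp.degree_eq_sum, Finsupp.degree_eq_weight_one]
    rfl
  by_cases h0 : d 0 = 0
  · refine Submodule.mem_sup_left (Submodule.subset_span ⟨(i, fun l => ⟨d l.succ.succ, ?_⟩), ?_⟩)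
    · exact lt_of_le_of_lt (hdeg ▸ Finset.single_le_sum (f := fun l => d l) (fun _ _ => Nat.zero_le _) (Finset.mem_univ _)) hD
    · funext y
      rw [Fin.sum_univ_succ, Fin.sum_univ_succ, h0] at hdeg
      have : K i - ∑ l : Fin n', d l.succ.succ = d 1 := by
        rw [← hdeg]
        simp
      simp only [gen, Pi.mul_apply, ev_pb, MvPolynomial.eval_monomial, one_mul, this]
      rw [Finsupp.prod_fintype _ _ (by simp), Fin.prod_univ_succ, Fin.prod_univ_succ, h0]
      simp
  · have hd' : d = (d - Finsupp.single 0 1) + Finsupp.single 0 1 := by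
      rw [tsub_add_cancel_of_le]
      exact Finsupp.single_le_iff.2 (Nat.one_le_iff_ne_zero.2 h0)
    have hK : ((d - Finsupp.single 0 1).degree : ℤ) = K i - 1 := by
      have := congrArg Finsupp.degree hd'
      rw [map_add, Finsupp.degree_single, Finsupp.degree_eq_sum, hdeg] at this
      omega
    have h1 := mul_mem hm (pb_hom Λ (MvPolynomial.isHomogeneous_monomial (d := d - Finsupp.single 0 1) (1 : ℂ) rfl))
    rw [hK, ← add_sub_assoc] at h1
    refine Submodule.mem_sup_right ⟨_, h1, ?_⟩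
    funext y
    conv_rhs => rw [hd', ← one_mul (1 : ℂ), ← MvPolynomial.monomial_mul]
    simp only [LinearMap.mulLeft_apply, Pi.mul_apply, map_mul, ev, MvPolynomial.X]
    ring

end F

open F

/-- F1 (GAGA): homogeneous holomorphic functions on the cone are rational. -/
theorem stF1 {N n : ℕ} (X : Geo N n) {j : ℤ} {h} (hh : h ∈ X.MH j) :
    ∃ (P Q : MvPolynomial (Fin (N + 1)) ℂ) (p q : ℕ), Q ∉ X.I ∧ P.IsHomogeneous p ∧ Q.IsHomogeneous q ∧
      ((p : ℤ) = j + q ∨ P = 0) ∧ ∀ y ∈ X.Y, ev Q y * h y = ev P y := by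
  obtain ⟨V⟩ := cov_exists X
  obtain ⟨P, Q, hQ, e⟩ := V.rat hh
  obtain ⟨q, hq⟩ := exists_hc hQ
  have key := extract (X := X) (fun y => y.ofLp) (fun _ _ => rfl) (m := ![h, X.Y.indicator 1]) (e := ![j, 0])
    (Fin.forall_fin_two.2 ⟨hh, ind_mem X⟩) ![Q, -P]
    (fun y hy => by
      have := e y hy
      simp only [ev] at this
      simp [indicator_of_mem hy, this]) (j + q)
  have key' : ∀ y ∈ X.Y, ev (MvPolynomial.homogeneousComponent q Q) y * h y = ev (-F.cmp (j + q) (-P)) y := fun y hy => by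
    have := key y hy
    simp only [Fin.sum_univ_two, cons_val_zero, cons_val_one, add_sub_cancel_left, sub_zero, indicator_of_mem hy,
      Pi.one_apply, mul_one] at this
    rw [show F.cmp (q : ℤ) Q = MvPolynomial.homogeneousComponent q Q by simp [F.cmp]] at this
    simp only [ev, map_neg]
    linear_combination this
  rcases cmp_hom (j + q) (-P) with h0 | ⟨h0, h1⟩
  · refine ⟨0, _, 0, q, hq, MvPolynomial.isHomogeneous_zero _ _ _, MvPolynomial.homogeneousComponent_isHomogeneous _ _,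
      Or.inr rfl, fun y hy => ?_⟩
    rw [key' y hy, h0, neg_zero]
  · exact ⟨_, _, _, q, hq, h1.neg, MvPolynomial.homogeneousComponent_isHomogeneous _ _, Or.inl (Int.toNat_of_nonneg h0), key'⟩

/-- F2: finiteness, in the form of a bound for `H⁰(j H) / ℓ H⁰((j-1) H)`. -/
theorem stF2 {N n : ℕ} (X : Geo N n) : ∃ (L : MvPolynomial (Fin (N + 1)) ℂ) (C : ℕ), L ∉ X.I ∧ L.IsHomogeneous 1 ∧
    ∀ j : ℤ, ∃ V : Submodule ℂ (Cn (N + 1) → ℂ), FiniteDimensional ℂ V ∧ Module.finrank ℂ V ≤ C * (j.natAbs + 1) ^ (n - 1) ∧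
      ∀ h ∈ X.MH j, ∃ v ∈ V, ∃ h' ∈ X.MH (j - 1), h = v + ev L * h' := by
  obtain ⟨V⟩ := cov_exists X
  obtain ⟨n', rfl⟩ : ∃ n', n = n' + 1 := ⟨n - 1, by have := X.npos; omega⟩
  obtain ⟨k, m, e, hm, hg⟩ := V.fg
  set E : ℕ := ∑ i, (e i).natAbs with hE
  have hE' : ∀ i, (e i).natAbs ≤ E := fun i =>
    Finset.single_le_sum (f := fun i => (e i).natAbs) (fun _ _ => Nat.zero_le _) (Finset.mem_univ i)
  refine ⟨pb V.Λ (MvPolynomial.X 0), k * (E + 1) ^ n', fun hI => MvPolynomial.X_ne_zero (R := ℂ) (0 : Fin (n' + 1 + 1))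
    (V.inj _ fun y hy => by rw [← ev_pb]; exact ev_mem hI hy), pb_X_hom _ _, fun j => ?_⟩
  refine ⟨Submodule.span ℂ (range (gen V.Λ m (fun i => (j - e i).toNat) (j.natAbs + E + 1))),
    FiniteDimensional.span_of_finite ℂ (finite_range _), (finrank_range_le_card _).trans ?_, fun h hh => ?_⟩
  · simp only [Fintype.card_prod, Fintype.card_fin, Fintype.card_pi, Finset.prod_const, Finset.card_univ,
      Nat.add_sub_cancel, mul_assoc, ← mul_pow]
    exact Nat.mul_le_mul_left _ (Nat.pow_le_pow_left (by nlinarith [Nat.zero_le (E * j.natAbs)]) _)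
  · obtain ⟨s, hs⟩ := hg j h hh
    have key := extract (X := X) (pr V.Λ) (pr_smul V.Λ) (ι := Option (Fin k)) (m := fun o => o.elim h m)
      (e := fun o => o.elim j e) (fun o => by cases o; exacts [hh, hm _]) (fun o => o.elim (-1) s)
      (fun y hy => by simp [hs y hy]) j
    have e1 : h = ∑ i, ev (pb V.Λ (F.cmp (j - e i) (s i))) * m i := by
      funext y
      by_cases hy : y ∈ X.Y
      · have := key y hy
        simp only [Fintype.sum_option, Option.elim_none, Option.elim_some, sub_self] at this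
        rw [show F.cmp 0 (-1 : Pl (n' + 1 + 1)) = -1 by simp [F.cmp]] at this
        simp only [Finset.sum_apply, Pi.mul_apply, ev_pb]
        simp only [map_neg, map_one] at this
        linear_combination -this
      · simp [hh.2.2 y hy, (hm _).2.2 y hy]
    have e2 : h ∈ Submodule.span ℂ (range (gen V.Λ m (fun i => (j - e i).toNat) (j.natAbs + E + 1))) ⊔
        (X.MH (j - 1)).map (LinearMap.mulLeft ℂ (ev (pb V.Λ (MvPolynomial.X 0)))) := by
      rw [e1]
      refine Submodule.sum_mem _ fun i _ => ?_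
      rcases cmp_hom (j - e i) (s i) with h0 | ⟨h0, h1⟩
      · rw [h0, map_zero, show ev (0 : Pl (N + 1)) = 0 from funext fun y => by simp [ev], zero_mul]
        exact Submodule.zero_mem _
      · have := split V.Λ (K := fun i => (j - e i).toNat) (D := j.natAbs + E + 1) (i := i)
          (by have := hE' i; show (j - e i).toNat < _; omega) (hm i) h1
        rwa [Int.toNat_of_nonneg h0, add_sub_cancel] at this
    obtain ⟨v, hv, _, ⟨h', hh', rfl⟩, e3⟩ := Submodule.mem_sup.1 e2
    exact ⟨v, hv, h', hh', e3.symm⟩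

end Crest.Agent.R269
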