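import Crest.Agent.R269.F.Base

/-!
# Row 269, block F: fibres (statements FROZEN)
-/

set_option autoImplicit false
set_option linter.unusedSectionVars false
set_option linter.unusedVariables false

noncomputable section

namespace Crest.Agent.R269.F

open Set Metric Filter Topology Matrix
open Crest.AlgGeometry.ProjEmb

variable {N n : ℕ}

/-- interpolation: a product of affine forms `(X i - C (y i)) / (y₀ i - y i)` -/
theorem exists_interp {m : ℕ} (F : Finset (Cn m)) (y₀ : Cn m) :
    ∃ G : Pl m, ev G y₀ = 1 ∧ ∀ y ∈ F, y ≠ y₀ → ev G y = 0 := by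
  classical
  induction F using Finset.induction_on with
  | empty => exact ⟨1, map_one _, by simp⟩
  | insert z F hz ih =>
    obtain ⟨G, h1, h2⟩ := ih
    by_cases h : z = y₀
    · refine ⟨G, h1, fun y hy hy' => h2 y ((Finset.mem_insert.1 hy).resolve_left (h ▸ hy')) hy'⟩
    · obtain ⟨i, hi⟩ : ∃ i, y₀ i - z i ≠ 0 := by
        by_contra hc
        push Not at hc
        exact h (by ext i; exact (sub_eq_zero.1 (hc i)).symm)
      refine ⟨G * (MvPolynomial.C (y₀ i - z i)⁻¹ * (MvPolynomial.X i - MvPolynomial.C (z i))), ?_,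
        fun y hy hy' => ?_⟩
      · simp only [ev, map_mul, map_sub, MvPolynomial.eval_C, MvPolynomial.eval_X] at h1 ⊢
        rw [h1, one_mul, inv_mul_cancel₀ hi]
      · rcases Finset.mem_insert.1 hy with rfl | hy
        · simp [ev]
        · have := h2 y hy hy'
          simp only [ev, map_mul] at this ⊢
          rw [this, zero_mul]

namespace Cov

variable {X : Geo N n} (V : Cov X)

/-- every function on a finite part of a fibre is a combination of the `a i` -/
theorem span {t : Fin (n + 1) → ℂ} {F : Finset (Cn (N + 1))} (hF : ↑F ⊆ fib X V.Λ t) (φ : Cn (N + 1) → ℂ) :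
    ∃ c : Fin V.r → ℂ, ∀ y ∈ F, φ y = ∑ i, c i * ev (V.a i) y := by
  choose G h1 h2 using exists_interp F
  obtain ⟨s, hs⟩ := V.gen (∑ z ∈ F, MvPolynomial.C (φ z) * G z)
  refine ⟨fun i => MvPolynomial.eval t (s i), fun y hy => ?_⟩
  obtain ⟨hY, ht⟩ := hF hy
  rw [← ht, ← hs y hY]
  simp only [ev, map_sum, map_mul, MvPolynomial.eval_C] at h1 h2 ⊢
  rw [Finset.sum_eq_single y (fun z _ hz => by rw [h2 z y hy hz.symm, mul_zero]) fun h => (h hy).elim,
    h1, mul_one]

/-- the linear map `(Fin r → ℂ) → (F → ℂ)` is onto -/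
theorem card_le {t : Fin (n + 1) → ℂ} {F : Finset (Cn (N + 1))} (hF : ↑F ⊆ fib X V.Λ t) : F.card ≤ V.r := by
  classical
  have h : Function.Surjective (Matrix.of fun (y : F) i => ev (V.a i) y.1).mulVecLin := fun φ => by
    obtain ⟨c, hc⟩ := V.span hF fun y => if h : y ∈ F then φ ⟨y, h⟩ else 0
    refine ⟨c, funext fun y => ?_⟩
    have := hc y.1 y.2
    rw [dif_pos y.2] at this
    simp only [mulVecLin_apply, mulVec, dotProduct, of_apply, this, mul_comm]
  simpa using LinearMap.finrank_le_finrank_of_surjective h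

theorem finite (t : Fin (n + 1) → ℂ) : (fib X V.Λ t).Finite := by
  by_contra h
  obtain ⟨F, hF, hc⟩ := Set.Infinite.exists_subset_card_eq h (V.r + 1)
  have := V.card_le hF
  omega

/-- the fibre as a finset -/
def fs (t : Fin (n + 1) → ℂ) : Finset (Cn (N + 1)) := (V.finite t).toFinset

theorem mem_fs {t : Fin (n + 1) → ℂ} {y : Cn (N + 1)} : y ∈ V.fs t ↔ y ∈ X.Y ∧ pr V.Λ y = t := (V.finite t).mem_toFinset

/-- fibre sums -/
def tr (g : Cn (N + 1) → ℂ) (t : Fin (n + 1) → ℂ) : ℂ := ∑ y ∈ V.fs t, g y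

/-- pointwise injectivity of `g ↦ (tr (a i * g))_i` -/
theorem tr_inj {t : Fin (n + 1) → ℂ} {g : Cn (N + 1) → ℂ} (h : ∀ i, V.tr (ev (V.a i) * g) t = 0) :
    ∀ y ∈ V.fs t, g y = 0 := by
  classical
  intro y hy
  obtain ⟨c, hc⟩ := V.span (F := V.fs t) (fun z hz => V.mem_fs.1 hz) fun z => if z = y then 1 else 0
  have : ∑ z ∈ V.fs t, (if z = y then 1 else 0) * g z = ∑ i, c i * V.tr (ev (V.a i) * g) t := by
    simp only [tr, Finset.mul_sum, Pi.mul_apply, ← mul_assoc]
    rw [Finset.sum_comm]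
    exact Finset.sum_congr rfl fun z hz => by rw [hc z hz, Finset.sum_mul]
  simpa [h, hy] using this

end Cov

end Crest.Agent.R269.F
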