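import Crest.Agent.R269.F.Base

/-!
# Row 269, block F: a generic projection (statements FROZEN)
-/

set_option autoImplicit false
set_option linter.unusedSectionVars false
set_option linter.unusedVariables false

noncomputable section

namespace Crest.Agent.R269.F

open Set Metric Filter Topology Matrix
open Crest.AlgGeometry.ProjEmb

variable {N n : ℕ}

/-- One chart.  Fix `e` with `ℓ e = 1` (`ℓ = ell C.Λ`, `e = C.σ w₀`).  Every `Λ` with `Λ (σ w) = 0` is `Φ (Λ', w)` with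
`Φ (Λ', w) = fun a i => Λ' a i - (Λ' *ᵥ σ w) a * C.Λ 0 i` and `Λ' = Λ - (Λ e) ⊗ ℓ` in the subspace `W = {Λ' | Λ' *ᵥ e = 0}`, which has complex
dimension `(n+1)(N+1) - (n+1)` (kernel of a surjective linear map).  `Φ` is real `C¹` on the convex set `univ ×ˢ ball w₀ ρ ⊆ W × Cn n`,
so `ContDiffOn.dimH_image_le` and `Real.dimH_univ_eq_finrank` give the bound (`finrank_real_of_complex`). -/
theorem dimH_bad_chart {X : Geo N n} (C : X.Chart) {w₀ : Cn n} {ρ : ℝ} (hρ : 0 < ρ) (hB : ball w₀ ρ ⊆ C.B) :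
    dimH {Λ : Fin (n + 1) → Fin (N + 1) → ℂ | ∃ w ∈ ball w₀ ρ, pr Λ (C.σ w) = 0} <
      Module.finrank ℝ (Fin (n + 1) → Fin (N + 1) → ℂ) := by
  have hw₀ : w₀ ∈ C.B := hB (mem_ball_self hρ)
  have hone : ∀ w ∈ C.B, ∑ i, C.Λ 0 i * C.σ w i = 1 := fun w hw => C.one w hw
  let L : (Fin (n + 1) → Fin (N + 1) → ℂ) →ₗ[ℝ] (Fin (n + 1) → ℂ) :=
    { toFun := fun Λ a => ∑ i, Λ a i * C.σ w₀ i
      map_add' := fun Λ Λ' => by
        funext a
        simp [add_mul, Finset.sum_add_distrib]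
      map_smul' := fun c Λ => by
        funext a
        simp [Finset.mul_sum, mul_assoc] }
  have hL : ∀ Λ a, L Λ a = ∑ i, Λ a i * C.σ w₀ i := fun _ _ => rfl
  have hsurj : LinearMap.range L = ⊤ := by
    refine LinearMap.range_eq_top.2 fun t => ⟨fun a i => t a * C.Λ 0 i, ?_⟩
    funext a
    rw [hL]
    simp only [mul_assoc, ← Finset.mul_sum, hone w₀ hw₀, mul_one]
  have hrk := LinearMap.finrank_range_add_finrank_ker L
  rw [hsurj, finrank_top, finrank_real_of_complex (Fin (n + 1) → ℂ), Module.finrank_fin_fun] at hrk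
  let Φ : LinearMap.ker L × Cn n → Fin (n + 1) → Fin (N + 1) → ℂ := fun p a i =>
    p.1.1 a i - (∑ j, p.1.1 a j * C.σ p.2 j) * C.Λ 0 i
  have hΦ : ContDiffOn ℝ 1 Φ (univ ×ˢ ball w₀ ρ) := by
    rintro ⟨Λ', w⟩ ⟨-, hw⟩
    refine ContDiffAt.contDiffWithinAt ?_
    have h1 : ∀ a i, ContDiffAt ℝ 1 (fun p : LinearMap.ker L × Cn n => p.1.1 a i) (Λ', w) := by
      intro a i
      have h0 : ContDiff ℝ 1 fun p : LinearMap.ker L × Cn n => p.1.1 :=
        (LinearMap.ker L).subtypeL.contDiff.comp contDiff_fst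
      exact (contDiff_pi.1 (contDiff_pi.1 h0 a) i).contDiffAt
    have h2 : ∀ j, ContDiffAt ℝ 1 (fun p : LinearMap.ker L × Cn n => C.σ p.2 j) (Λ', w) := by
      intro j
      have h0 : ContDiffAt ℝ 1 (fun x => C.σ x j) w :=
        (((alg1_coord j _).comp (C.an w (hB hw))).contDiffAt (n := 1)).restrict_scalars ℝ
      exact ContDiffAt.comp (Λ', w) h0 contDiffAt_snd
    refine contDiffAt_pi.2 fun a => contDiffAt_pi.2 fun i => ?_
    exact (h1 a i).sub ((ContDiffAt.sum fun j _ => (h1 a j).mul (h2 j)).mul contDiffAt_const)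
  have hsub : {Λ : Fin (n + 1) → Fin (N + 1) → ℂ | ∃ w ∈ ball w₀ ρ, pr Λ (C.σ w) = 0} ⊆
      Φ '' (univ ×ˢ ball w₀ ρ) := by
    rintro Λ ⟨w, hw, h0⟩
    have h1 : ∀ a, ∑ j, Λ a j * C.σ w j = 0 := fun a => congrFun h0 a
    refine ⟨(⟨fun a i => Λ a i - L Λ a * C.Λ 0 i, ?_⟩, w), ⟨trivial, hw⟩, ?_⟩
    · rw [LinearMap.mem_ker]
      funext a
      rw [hL]
      simp only [sub_mul, Finset.sum_sub_distrib, mul_assoc, ← Finset.mul_sum, hone w₀ hw₀, mul_one]
      rw [hL, sub_self]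
      rfl
    · funext a i
      simp only [Φ, sub_mul, Finset.sum_sub_distrib, mul_assoc, ← Finset.mul_sum, hone w (hB hw),
        mul_one, h1]
      ring
  refine ((dimH_mono hsub).trans (hΦ.dimH_image_le (convex_univ.prod (convex_ball _ _))
    Subset.rfl)).trans_lt (((dimH_mono (subset_univ _)).trans_eq (Real.dimH_univ_eq_finrank _)).trans_lt ?_)
  rw [Nat.cast_lt, Module.finrank_prod, finrank_real_of_complex (Cn n), finrank_euclideanSpace_fin, ← hrk]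
  omega

/-- `exists_chart_at`, `exists_atlas` (radii with `ball ⊆ C.B`), `pr_smul`, `dimH_bUnion` over the finite atlas,
`dense_compl_of_dimH_lt_finrank`. -/
theorem dense_good (X : Geo N n) : Dense {Λ : Fin (n + 1) → Fin (N + 1) → ℂ | ∀ y ∈ X.Y, pr Λ y ≠ 0} := by
  choose C w t hw ht hy using fun y : X.Y => X.exists_chart_at y.2
  choose r hr hB using fun y : X.Y => Metric.isOpen_iff.1 (C y).isOpen (w y) (hw y)
  obtain ⟨s, hs⟩ := X.exists_atlas C w r hr hw fun y => ⟨t y, ht y, hy y⟩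
  have hlt : dimH (⋃ y ∈ (s : Set X.Y), {Λ : Fin (n + 1) → Fin (N + 1) → ℂ |
      ∃ z ∈ ball (w y) (r y), pr Λ ((C y).σ z) = 0}) <
      Module.finrank ℝ (Fin (n + 1) → Fin (N + 1) → ℂ) := by
    rw [dimH_bUnion s.countable_toSet]
    have h0 : (⊥ : ENNReal) < Module.finrank ℝ (Fin (n + 1) → Fin (N + 1) → ℂ) := by
      rw [bot_eq_zero, Nat.cast_pos]
      exact Module.finrank_pos
    have := (Finset.sup_lt_iff (s := s) (f := fun y => dimH {Λ : Fin (n + 1) → Fin (N + 1) → ℂ |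
      ∃ z ∈ ball (w y) (r y), pr Λ ((C y).σ z) = 0}) h0).2
      fun y _ => dimH_bad_chart (C y) (hr y) (hB y)
    rwa [Finset.sup_eq_iSup] at this
  refine (dense_compl_of_dimH_lt_finrank hlt).mono ?_
  intro Λ hΛ x hx h0
  refine hΛ ?_
  obtain ⟨y, hys, z, hz, c, hc, rfl⟩ := hs x hx
  exact mem_biUnion hys ⟨z, hz.1,
    (smul_eq_zero.1 ((pr_smul Λ c _).symm.trans h0)).resolve_left hc⟩

/-- `Y_nonempty`, `exists_Lambda`; `Λ ↦ ell Λ y` and `Λ ↦ dl f Λ y` are continuous (`Continuous.matrix_det`), `dense_good`. -/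
theorem exists_Lam (X : Geo N n) : ∃ Λ : Matrix (Fin (n + 1)) (Fin (N + 1)) ℂ, (∀ y ∈ X.Y, pr Λ y ≠ 0) ∧
    ∃ y ∈ X.Y, ell Λ y ≠ 0 ∧ ∃ f, X.dl f Λ y ≠ 0 := by
  obtain ⟨y, hy⟩ := X.Y_nonempty
  obtain ⟨Λ₀, h1, -, ⟨f, h2⟩, -⟩ := X.exists_Lambda hy hy
  have c1 : Continuous fun Λ : Fin (n + 1) → Fin (N + 1) → ℂ => ell Λ y := by
    have : (fun Λ : Fin (n + 1) → Fin (N + 1) → ℂ => ell Λ y) = fun Λ => ∑ i, Λ 0 i * y i := rfl
    rw [this]
    fun_prop
  have c2 : Continuous fun Λ : Fin (n + 1) → Fin (N + 1) → ℂ => X.dl f Λ y := by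
    refine Continuous.matrix_det (continuous_pi fun r => ?_)
    show Continuous fun Λ : Fin (n + 1) → Fin (N + 1) → ℂ =>
      Sum.elim (fun a => Λ a) (fun i => X.J y (f i)) (X.eqv.symm r)
    rcases X.eqv.symm r with a | i
    · exact continuous_apply a
    · exact continuous_const
  obtain ⟨Λ, ⟨h3, h4⟩, h5⟩ := (dense_good X).inter_open_nonempty _
    ((isOpen_ne_fun c1 continuous_const).inter (isOpen_ne_fun c2 continuous_const)) ⟨Λ₀, h1, h2⟩
  exact ⟨Λ, h5, y, hy, h3, f, h4⟩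

end Crest.Agent.R269.F
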