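import Crest.Agent.R269.F.Base
import Crest.Agent.R271.T1.Poly

/-!
# Row 269, block F: holomorphic functions of polynomial growth off a hypersurface (statements FROZEN)
-/

set_option autoImplicit false
set_option linter.unusedSectionVars false
set_option linter.unusedVariables false

noncomputable section

namespace Crest.Agent.R269.F

open Set Metric Filter Topology Matrix
open Crest.AlgGeometry.ProjEmb

variable {N n : ℕ}

/-- One variable: Riemann's theorem at the finitely many points (induct on `S` as in `R271.T1.ov_ext`, with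
`Complex.differentiableOn_update_limUnder_of_bddAbove`; or get the hypothesis of `ov_ext` from boundedness on balls), then
`R271.T1.ov_growth` (the bound passes to the extension by continuity; `Sᶜ` is dense). -/
theorem ov_bdd {S : Set ℂ} (hS : S.Finite) {g : ℂ → ℂ} (hg : ∀ ζ ∉ S, DifferentiableAt ℂ g ζ) {C : ℝ} {k : ℕ}
    (hb : ∀ ζ ∉ S, ‖g ζ‖ ≤ C * (1 + ‖ζ‖) ^ k) : ∃ q : Polynomial ℂ, q.natDegree ≤ k ∧ ∀ ζ ∉ S, g ζ = q.eval ζ := by
  have hb' : ∀ ζ ∉ S, ‖g ζ‖ ≤ |C| * (1 + ‖ζ‖) ^ k := fun ζ hζ =>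
    (hb ζ hζ).trans (mul_le_mul_of_nonneg_right (le_abs_self C) (by positivity))
  obtain ⟨G, hG, hG'⟩ := R271.T1.ov_ext hS hg fun R => by
    refine ne_top_of_le_ne_top (b := ∫⁻ _ in ball (0 : ℂ) R, ENNReal.ofReal ((|C| * (1 + R) ^ k) ^ 2)) ?_ ?_
    · rw [MeasureTheory.setLIntegral_const]
      exact ENNReal.mul_ne_top ENNReal.ofReal_ne_top MeasureTheory.measure_ball_lt_top.ne
    · refine MeasureTheory.setLIntegral_mono_ae' measurableSet_ball ?_
      filter_upwards [MeasureTheory.compl_mem_ae_iff.2 (hS.measure_zero MeasureTheory.volume)] with x hx hx'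
      have h1 := mem_ball_zero_iff.1 hx'
      refine ENNReal.ofReal_le_ofReal (pow_le_pow_left₀ (norm_nonneg _) ((hb' x hx).trans ?_) 2)
      gcongr
  have h1 : ∀ ζ, ‖G ζ‖ ≤ |C| * (1 + ‖ζ‖) ^ k := fun ζ =>
    (isClosed_le hG.continuous.norm (by fun_prop)).closure_subset_iff.2
      (show Sᶜ ⊆ {ζ | ‖G ζ‖ ≤ |C| * (1 + ‖ζ‖) ^ k} from fun ζ hζ => by
        rw [mem_ofPred_eq, hG' ζ hζ]; exact hb' ζ hζ) (hS.countable.dense_compl ℂ ζ)
  obtain ⟨q, hq, hq'⟩ := R271.T1.ov_growth hG (m := k) (C := |C| * 2 ^ k) fun ζ hζ => by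
    refine (h1 ζ).trans ?_
    rw [mul_assoc, ← mul_pow]
    gcongr
    linarith
  exact ⟨q, hq, fun ζ hζ => (hG' ζ hζ).symm.trans (hq' ζ)⟩

/-- As `R271.T1.poly_of_L2'`, but on every line through `v₀`: `taylor_poly`, `line_poly`, `line_finite`, `poly_zero_of_bigO`. -/
theorem poly_of_bdd {m : ℕ} {Δ : Pl m} (hΔ : Δ ≠ 0) {T : (Fin m → ℂ) → ℂ}
    (hT : ∀ t, MvPolynomial.eval t Δ ≠ 0 → DifferentiableAt ℂ T t) {C : ℝ} {k : ℕ}
    (hb : ∀ t, MvPolynomial.eval t Δ ≠ 0 → ‖T t‖ ≤ C * (1 + ‖t‖) ^ k) :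
    ∃ P : Pl m, ∀ t, MvPolynomial.eval t Δ ≠ 0 → T t = MvPolynomial.eval t P := by
  obtain ⟨v₀, h0⟩ := (R271.T1.dense_ne hΔ).nonempty
  have hW : IsOpen {v : Fin m → ℂ | MvPolynomial.eval v Δ ≠ 0} :=
    isOpen_ne_fun (R271.T1.eval_cont Δ) continuous_const
  obtain ⟨p, hp⟩ := R266.analyticAt_of_ev (f := T) (x := v₀) (mem_of_superset (hW.mem_nhds h0) hT)
  obtain ⟨P, hP⟩ := R271.T1.taylor_poly p v₀ (k + 1)
  have key : ∀ ξ : Fin m → ℂ, MvPolynomial.eval (v₀ + ξ) Δ ≠ 0 → T (v₀ + ξ) = MvPolynomial.eval (v₀ + ξ) P := by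
    intro ξ h1
    have hS := R271.T1.line_finite h0 ξ
    obtain ⟨q, hq, hq'⟩ := ov_bdd hS (g := fun ζ => T (v₀ + ζ • ξ)) (fun ζ hζ =>
      (hT _ hζ).comp ζ (by fun_prop)) (C := |C| * (1 + ‖v₀‖ + ‖ξ‖) ^ k) (k := k) fun ζ hζ => by
        refine ((hb _ hζ).trans (mul_le_mul_of_nonneg_right (le_abs_self C) (by positivity))).trans ?_
        rw [mul_assoc, ← mul_pow]
        gcongr
        have := norm_add_le v₀ (ζ • ξ)
        rw [norm_smul] at this
        nlinarith [norm_nonneg ζ, norm_nonneg ξ, mul_nonneg (norm_nonneg v₀) (norm_nonneg ζ)]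
    have h2 : ∀ ζ : ℂ, (∑ i ∈ Finset.range (k + 1), Polynomial.C (p i fun _ => ξ) * Polynomial.X ^ i).eval ζ =
        p.partialSum (k + 1) (ζ • ξ) := fun ζ => by
      simp only [Polynomial.eval_finsetSum, Polynomial.eval_mul, Polynomial.eval_C, Polynomial.eval_pow,
        Polynomial.eval_X, FormalMultilinearSeries.partialSum]
      refine Finset.sum_congr rfl fun k _ => ?_
      rw [ContinuousMultilinearMap.map_smul_univ, Finset.prod_const, Finset.card_univ, Fintype.card_fin, smul_eq_mul,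
        mul_comm]
    have h3 : q - ∑ i ∈ Finset.range (k + 1), Polynomial.C (p i fun _ => ξ) * Polynomial.X ^ i = 0 := by
      refine R271.T1.poly_zero_of_bigO (N := k) ((Polynomial.natDegree_sub_le _ _).trans (max_le hq ?_)) ?_
      · refine Polynomial.natDegree_sum_le_of_forall_le _ _ fun i hi =>
          (Polynomial.natDegree_C_mul_X_pow_le _ _).trans ?_
        exact Nat.lt_succ_iff.1 (Finset.mem_range.1 hi)
      · have h4 : Tendsto (fun ζ : ℂ => ζ • ξ) (𝓝[≠] 0) (𝓝 0) := by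
          have : Continuous fun ζ : ℂ => ζ • ξ := by fun_prop
          simpa using (this.tendsto 0).mono_left (nhdsWithin_le_nhds (s := {0}ᶜ))
        have h5 := (hp.isBigO_sub_partialSum_pow (k + 1)).comp_tendsto h4
        refine (h5.congr' ?_ EventuallyEq.rfl).trans (Asymptotics.IsBigO.of_bound (‖ξ‖ ^ (k + 1)) ?_)
        · filter_upwards [mem_nhdsWithin_of_mem_nhds (hS.isClosed.isOpen_compl.mem_nhds
            (show (0 : ℂ) ∈ _ by simpa using h0))] with ζ hζ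
          rw [Polynomial.eval_sub, ← hq' ζ hζ, h2, Function.comp]
        · refine Eventually.of_forall fun ζ => le_of_eq ?_
          simp only [Function.comp, norm_mul, norm_pow, norm_norm, norm_smul]
          ring
    have h4 := congrArg (Polynomial.eval 1) h3
    rw [Polynomial.eval_sub, ← hq' 1 (by simpa using h1), h2, one_smul, Polynomial.eval_zero, sub_eq_zero] at h4
    rw [hP, h4]
  exact ⟨P, fun v hv => by simpa using key (v - v₀) (by simpa using hv)⟩

/-- For `j ≥ 0` this is `poly_of_bdd`.  For `j = -k < 0`: `t a ^ k * T t` is bounded, equal to `P a` for `a = 0, 1`;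
`P 0 * X 1 ^ k = P 1 * X 0 ^ k` (`eq_of_off`), so `X 0 ^ k ∣ P 0` (`MvPolynomial.X_prime`, `Prime.pow_dvd_of_dvd_mul_right`,
`MvPolynomial.X_dvd_X`). -/
theorem poly_of_zpow (hn : 1 ≤ n) {Δ : Pl (n + 1)} (hΔ : Δ ≠ 0)
    (h0 : ∀ t : Fin (n + 1) → ℂ, MvPolynomial.eval t Δ ≠ 0 → t 0 ≠ 0) {T : (Fin (n + 1) → ℂ) → ℂ}
    (hT : ∀ t, MvPolynomial.eval t Δ ≠ 0 → DifferentiableAt ℂ T t) {C : ℝ} {j : ℤ}
    (hb : ∀ t, MvPolynomial.eval t Δ ≠ 0 → ‖T t‖ ≤ C * ‖t‖ ^ j) :
    ∃ P : Pl (n + 1), ∀ t, MvPolynomial.eval t Δ ≠ 0 → T t = MvPolynomial.eval t P := by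
  obtain ⟨k, rfl | rfl⟩ := j.eq_nat_or_neg
  · refine poly_of_bdd hΔ hT (C := |C|) (k := k) fun t ht => (hb t ht).trans ?_
    rw [_root_.zpow_natCast]
    refine (mul_le_mul_of_nonneg_right (le_abs_self C) (by positivity)).trans ?_
    gcongr
    linarith
  · have key : ∀ a : Fin (n + 1), ∃ P : Pl (n + 1), ∀ t, MvPolynomial.eval t Δ ≠ 0 →
        t a ^ k * T t = MvPolynomial.eval t P := fun a => by
      refine poly_of_bdd hΔ (T := fun t => t a ^ k * T t) (fun t ht => DifferentiableAt.mul (by fun_prop) (hT t ht))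
        (C := |C|) (k := 0) fun t ht => ?_
      have h1 : 0 < ‖t‖ := norm_pos_iff.2 fun h => h0 t ht (by simp [h])
      have h2 := (hb t ht).trans (mul_le_mul_of_nonneg_right (le_abs_self C) (by positivity))
      rw [_root_.zpow_neg, _root_.zpow_natCast, ← div_eq_mul_inv, le_div_iff₀ (by positivity)] at h2
      rw [norm_mul, norm_pow, pow_zero, mul_one, mul_comm]
      refine le_trans ?_ h2
      gcongr
      exact norm_le_pi_norm t a
    obtain ⟨P₀, h₀⟩ := key 0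
    obtain ⟨P₁, h₁⟩ := key ⟨1, by omega⟩
    have e : P₀ * MvPolynomial.X ⟨1, by omega⟩ ^ k = MvPolynomial.X 0 ^ k * P₁ := eq_of_off hΔ fun t ht => by
      simp only [map_mul, map_pow, MvPolynomial.eval_X, ← h₀ t ht, ← h₁ t ht]
      ring
    obtain ⟨Q, rfl⟩ := (MvPolynomial.X_prime (R := ℂ) (i := (0 : Fin (n + 1)))).pow_dvd_of_dvd_mul_right k
      (fun h => by simpa [Fin.ext_iff] using
        (MvPolynomial.X_prime (R := ℂ) (i := (0 : Fin (n + 1)))).dvd_of_dvd_pow h) ⟨P₁, e⟩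
    refine ⟨Q, fun t ht => mul_left_cancel₀ (pow_ne_zero k (h0 t ht)) ?_⟩
    rw [h₀ t ht, map_mul, map_pow, MvPolynomial.eval_X]

end Crest.Agent.R269.F
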