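import Crest.Agent.R269.F.Del
import Crest.Agent.R269.F.Pol
import Crest.Agent.R269.F.Ext
import Crest.Agent.R269.F.Fib

/-!
# Row 269, block F: fibre sums are polynomials (statements FROZEN)
-/

set_option autoImplicit false
set_option linter.unusedSectionVars false
set_option linter.unusedVariables false

noncomputable section

namespace Crest.Agent.R269.F

open Set Metric Filter Topology Matrix
open Crest.AlgGeometry.ProjEmb

variable {N n : ℕ}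

namespace Cov

variable {X : Geo N n} (V : Cov X)

/-- `bdd_of_hom` for `‖h y‖ / ‖pr y‖ ^ j` -/
theorem bound {j : ℤ} {h : Cn (N + 1) → ℂ} (hh : h ∈ X.MH j) : ∃ C, 0 ≤ C ∧ ∀ y ∈ X.Y, ‖h y‖ ≤ C * ‖pr V.Λ y‖ ^ j := by
  have hp : ∀ y ∈ X.Y, 0 < ‖pr V.Λ y‖ ^ j := fun y hy => zpow_pos (norm_pos_iff.2 (V.ne y hy)) j
  obtain ⟨C, hC, h1⟩ := bdd_of_hom X (φ := fun y => ‖h y‖ / ‖pr V.Λ y‖ ^ j)
    ((MH_cont hh).norm.div ((continuous_pr V.Λ).norm.continuousOn.zpow₀ j fun y hy =>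
      Or.inl (norm_ne_zero_iff.2 (V.ne y hy))) fun y hy => (hp y hy).ne')
    fun y hy c hc => by
      simp only [hh.2.1 y hy c hc, pr_smul, norm_smul, norm_mul, norm_zpow, mul_zpow]
      exact mul_div_mul_left _ _ (zpow_ne_zero j (norm_ne_zero_iff.2 hc))
  exact ⟨C, hC, fun y hy => (div_le_iff₀ (hp y hy)).1 (h1 y hy)⟩

/-- `bdd_of_hom` for `‖y‖ / ‖pr y‖` -/
theorem norm_le : ∃ C, 0 ≤ C ∧ ∀ y ∈ X.Y, ‖y‖ ≤ C * ‖pr V.Λ y‖ := by
  have hp : ∀ y ∈ X.Y, 0 < ‖pr V.Λ y‖ := fun y hy => norm_pos_iff.2 (V.ne y hy)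
  obtain ⟨C, hC, h1⟩ := bdd_of_hom X (φ := fun y => ‖y‖ / ‖pr V.Λ y‖)
    (continuous_norm.continuousOn.div (continuous_pr V.Λ).norm.continuousOn fun y hy => (hp y hy).ne')
    fun y hy c hc => by
      simp only [pr_smul, norm_smul]
      exact mul_div_mul_left _ _ (norm_ne_zero_iff.2 hc)
  exact ⟨C, hC, fun y hy => (div_le_iff₀ (hp y hy)).1 (h1 y hy)⟩

/-- properness: `(insert 0 Y ∩ closedBall 0 (C (‖t‖ + 1))) \ O` is compact, its image is closed and misses `t` -/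
theorem proper {t : Fin (n + 1) → ℂ} (ht : t ≠ 0) {O : Set (Cn (N + 1))} (hO : IsOpen O) (h : ∀ y ∈ V.fs t, y ∈ O) :
    ∀ᶠ t' in 𝓝 t, ∀ x ∈ V.fs t', x ∈ O := by
  obtain ⟨C, hC, h1⟩ := V.norm_le
  have hK : IsCompact ((closedBall (0 : Cn (N + 1)) (C * (‖t‖ + 1)) ∩ insert 0 X.Y) \ O) :=
    ((isCompact_closedBall _ _).inter_right X.isClosed_Y0).diff hO
  have h2 : (pr V.Λ '' ((closedBall (0 : Cn (N + 1)) (C * (‖t‖ + 1)) ∩ insert 0 X.Y) \ O))ᶜ ∈ 𝓝 t := by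
    refine (hK.image (continuous_pr V.Λ)).isClosed.isOpen_compl.mem_nhds ?_
    rintro ⟨y, ⟨⟨-, rfl | hy⟩, hy'⟩, e⟩
    · exact ht (by simp [← e, pr])
    · exact hy' (h y (V.mem_fs.2 ⟨hy, e⟩))
  filter_upwards [h2, closedBall_mem_nhds t one_pos] with t' a1 a2 x hx
  obtain ⟨hx, e⟩ := V.mem_fs.1 hx
  by_contra hxO
  refine a1 ⟨x, ⟨⟨mem_closedBall_zero_iff.2 ((h1 x hx).trans (mul_le_mul_of_nonneg_left ?_ hC)), Or.inr hx⟩, hxO⟩, e⟩
  rw [e]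
  exact norm_le_of_mem_closedBall a2

/-- near `t` the fibre is `{σ_y t' : y ∈ fs t}` (`exists_sec`, `proper`), and the `σ_y t'` stay distinct -/
theorem tr_diff {g : Cn (N + 1) → ℂ} (hg : X.HolY g) {t : Fin (n + 1) → ℂ} (ht : MvPolynomial.eval t V.Δ ≠ 0) :
    DifferentiableAt ℂ (V.tr g) t := by
  classical
  have h1 : ∀ y : V.fs t, ∃ σ : (Fin (n + 1) → ℂ) → Cn (N + 1), AnalyticAt ℂ σ t ∧ σ t = y ∧
      (∀ᶠ t' in 𝓝 t, σ t' ∈ X.Y ∧ pr V.Λ (σ t') = t') ∧ ∀ᶠ x in 𝓝[X.Y] (y : Cn (N + 1)), σ (pr V.Λ x) = x := fun y => by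
    obtain ⟨hy, e⟩ := V.mem_fs.1 y.2
    obtain ⟨f, hf⟩ := V.et y hy (e.symm ▸ ht)
    have := exists_sec X hy (by rw [← pr_zero, e]; exact V.Δ0 t ht) hf
    rwa [e] at this
  choose σ ha h0 hs hl using h1
  choose O hO hO' hO'' using fun y => mem_nhdsWithin.1 (hl y)
  have h2 := V.proper (t := t) (fun h => V.Δ0 t ht (by simp [h])) (isOpen_iUnion hO)
    fun y hy => mem_iUnion.2 ⟨⟨y, hy⟩, hO' _⟩
  have h3 : ∀ᶠ t' in 𝓝 t, ∀ y y' : V.fs t, y ≠ y' → σ y t' ≠ σ y' t' := by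
    refine eventually_all.2 fun y => eventually_all.2 fun y' => ?_
    by_cases h : y = y'
    · simp [h]
    · have := ((ha y).continuousAt.sub (ha y').continuousAt).eventually_ne (y := 0)
        (by simpa [h0, sub_eq_zero] using fun e => h (Subtype.ext e))
      filter_upwards [this] with t' a _
      exact sub_ne_zero.1 a
  choose G hG hG' using fun y : V.fs t => hg y (V.mem_fs.1 y.2).1
  have h4 : ∀ y, ∀ᶠ t' in 𝓝 t, g (σ y t') = G y (σ y t') := fun y => by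
    have : Tendsto (σ y) (𝓝 t) (𝓝[X.Y] (y : Cn (N + 1))) :=
      tendsto_nhdsWithin_iff.2 ⟨h0 y ▸ (ha y).continuousAt, (hs y).mono fun _ h => h.1⟩
    exact this.eventually (hG' y)
  have h5 : DifferentiableAt ℂ (fun t' => ∑ y : V.fs t, G y (σ y t')) t :=
    DifferentiableAt.fun_sum fun y _ => ((h0 y).symm ▸ (hG y).differentiableAt).comp t (ha y).differentiableAt
  refine h5.congr_of_eventuallyEq ?_
  filter_upwards [h2, h3, eventually_all.2 h4, eventually_all.2 hs] with t' a2 a3 a4 a5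
  symm
  refine Finset.sum_bij (fun y _ => σ y t') (fun y _ => V.mem_fs.2 (a5 y)) (fun y _ y' _ h => by_contra fun h' => a3 y y' h' h)
    (fun x hx => ?_) fun y _ => (a4 y).symm
  obtain ⟨y, hy⟩ := mem_iUnion.1 (a2 x hx)
  obtain ⟨hx, e⟩ := V.mem_fs.1 hx
  exact ⟨y, Finset.mem_univ _, e ▸ hO'' y ⟨hy, hx⟩⟩

theorem tr_poly {j : ℤ} {h : Cn (N + 1) → ℂ} (hh : h ∈ X.MH j) :
    ∃ P : Pl (n + 1), ∀ t, MvPolynomial.eval t V.Δ ≠ 0 → V.tr h t = MvPolynomial.eval t P := by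
  obtain ⟨C, hC, h1⟩ := V.bound hh
  refine poly_of_zpow X.npos V.Δne V.Δ0 (fun t ht => V.tr_diff hh.1 ht) (C := V.r * C) (j := j) fun t ht => ?_
  refine (norm_sum_le _ _).trans ((Finset.sum_le_card_nsmul _ _ (C * ‖t‖ ^ j) fun y hy => ?_).trans ?_)
  · obtain ⟨hy, e⟩ := V.mem_fs.1 hy
    exact e ▸ h1 y hy
  · rw [nsmul_eq_mul, mul_assoc]
    exact mul_le_mul_of_nonneg_right (Nat.cast_le.2 (V.card_le fun y hy => V.mem_fs.1 hy)) (by positivity)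

end Cov

end Crest.Agent.R269.F
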